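import Vale.Agent.P202.Mixed.Field.Val

/-!
# P202 mixed characteristic, block A2: the integral closure is local

A monic irreducible polynomial over a complete local ring whose constant coefficient is not a unit
has all lower coefficients in the maximal ideal, by Weierstrass preparation.
-/

noncomputable section

namespace Vale.Agent.P202.Mixed.Field

open IsLocalRing Polynomial

universe u

theorem coeff_mem_of_irreducible {A : Type*} [CommRing A] [IsDomain A] [IsLocalRing A]
    [IsAdicComplete (maximalIdeal A) A] {f : A[X]} (hf : f.Monic) (hirr : Irreducible f)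
    (h0 : f.coeff 0 ∈ maximalIdeal A) {i : ℕ} (hi : i < f.natDegree) :
    f.coeff i ∈ maximalIdeal A := by
  have hne : (f : PowerSeries A).map (residue A) ≠ 0 := fun h => by
    have := congrArg (PowerSeries.coeff f.natDegree) h
    simp [hf.coeff_natDegree] at this
  obtain ⟨w, h, H⟩ := PowerSeries.exists_isWeierstrassFactorization hne
  have hw := H.isDistinguishedAt
  have hmax : maximalIdeal A ≠ ⊤ := (maximalIdeal.isMaximal A).ne_top
  have hdiv := hw.isWeierstrassDivisorAt hmax
  have hord : (((w : PowerSeries A).map (Ideal.Quotient.mk (maximalIdeal A))).order.toNat) =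
      w.natDegree := by
    have := congrArg ENat.toNat (hw.coe_natDegree_eq_order_map (w : PowerSeries A) 1
      (by rwa [PowerSeries.constantCoeff_one, ← Ideal.ne_top_iff_one]) (by simp))
    simpa using this.symm
  have heq : (w : PowerSeries A) * ((f /ₘ w : A[X]) : PowerSeries A) + ((f %ₘ w : A[X]) : PowerSeries A)
      = (w : PowerSeries A) * h + ((0 : A[X]) : PowerSeries A) := by
    rw [Polynomial.coe_zero, add_zero, ← H.eq_mul, ← Polynomial.coe_mul, ← Polynomial.coe_add,
      add_comm, modByMonic_add_div]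
  obtain ⟨-, h2⟩ := hdiv.eq_of_mul_add_eq_mul_add
    (by rw [hord, ← degree_eq_natDegree hw.monic.ne_zero]; exact degree_modByMonic_lt _ hw.monic)
    (by rw [Polynomial.degree_zero]; exact WithBot.bot_lt_coe _) heq
  have hfw : w * (f /ₘ w) = f := by
    conv_rhs => rw [← modByMonic_add_div f w]
    rw [h2, zero_add]
  have hw0 : w.natDegree ≠ 0 := by
    intro hd
    have h1 : constantCoeff (R := A) w = 1 := by
      rw [eq_C_of_natDegree_eq_zero hd] at hw
      simpa using hw.monic.leadingCoeff
    have h2 := congrArg (PowerSeries.constantCoeff (R := A)) H.eq_mul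
    rw [map_mul, Polynomial.constantCoeff_coe, Polynomial.constantCoeff_coe] at h2
    rw [show w.coeff 0 = constantCoeff (R := A) w from rfl, h1, one_mul] at h2
    exact (mem_nonunits_iff.1 h0) (h2 ▸ PowerSeries.isUnit_iff_constantCoeff.1 H.isUnit)
  rcases hirr.isUnit_or_isUnit hfw.symm with hu | hu
  · exact absurd (natDegree_eq_zero_of_isUnit hu) hw0
  · obtain ⟨c, hc, hq⟩ := Polynomial.isUnit_iff.1 hu
    rw [← hfw, ← hq, mul_comm, coeff_C_mul]
    refine Ideal.mul_mem_left _ _ (hw.mem ?_)
    rwa [← hfw, natDegree_mul hw.monic.ne_zero hu.ne_zero, natDegree_eq_zero_of_isUnit hu,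
      add_zero] at hi

variable (k : Type u) [_root_.Field k] (d : ℕ)

instance : IsAdicComplete (maximalIdeal (Ser k d)) (Ser k d) := by
  rw [maximalIdeal_mvPowerSeries]; infer_instance

variable {k d}

theorem OrdVal.pos_of_mem (w : OrdVal k d) {x : T0 k d}
    (hx : x ∈ ((maximalIdeal (Ser k d)).map (algebraMap (Ser k d) (T0 k d))).radical) :
    0 < w.at x := by
  let I : Ideal (T0 k d) :=
    { carrier := {a | 0 < w.at a}
      zero_mem' := by simp [OrdVal.at]
      add_mem' := fun {a b} ha hb => lt_of_lt_of_le (lt_min ha hb) (w.v.map_add _ _)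
      smul_mem' := fun c a ha => by
        show 0 < w.v ((c : Kbar k d) * (a : Kbar k d))
        rw [w.v.map_mul]
        exact lt_of_lt_of_le ha (le_add_of_nonneg_left (w.nonneg c)) }
  obtain ⟨n, hn⟩ := hx
  have hle : (maximalIdeal (Ser k d)).map (algebraMap (Ser k d) (T0 k d)) ≤ I := by
    rw [Ideal.map_le_iff_le_comap]
    intro f hf
    show 0 < w.v (algebraMap (Ser k d) (Kbar k d) f)
    by_cases hf0 : f = 0
    · simp [hf0]
    rw [w.eq_ord f hf0]
    have : 0 < ord k d f := by
      by_contra h
      push Not at h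
      have h0 : f.order = 0 := by rw [order_eq_ord hf0]; exact_mod_cast (Nat.le_zero.1 h)
      rw [mem_maximalIdeal, mem_nonunits_iff, MvPowerSeries.isUnit_iff_constantCoeff,
        isUnit_iff_ne_zero, not_not] at hf
      exact (MvPowerSeries.order_ne_zero_iff_constCoeff_eq_zero.2 hf) h0
    exact_mod_cast this
  have h1 : 0 < w.v ((x : Kbar k d) ^ n) := hle hn
  rw [w.v.map_pow] at h1
  by_contra h
  push Not at h
  exact not_lt.2 (nsmul_nonpos h n) h1

theorem OrdVal.eq_zero_of_isUnit (w : OrdVal k d) {x : T0 k d} (hx : IsUnit x) : w.at x = 0 := by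
  obtain ⟨y, hy⟩ := hx.exists_right_inv
  have h : w.v (x : Kbar k d) + w.v (y : Kbar k d) = 0 := by
    rw [← w.v.map_mul, ← Subalgebra.coe_mul, hy, OneMemClass.coe_one, w.v.map_one]
  exact le_antisymm (h ▸ le_add_of_nonneg_right (w.nonneg y)) (w.nonneg x)

theorem not_isUnit_iff (x : T0 k d) :
    ¬ IsUnit x ↔ x ∈ ((maximalIdeal (Ser k d)).map (algebraMap (Ser k d) (T0 k d))).radical := by
  refine ⟨fun hx => ?_, fun h hu => ?_⟩
  · have hint : IsIntegral (Ser k d) x := Algebra.IsIntegral.isIntegral x
    have hf := minpoly.monic hint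
    have hev : Polynomial.aeval x (minpoly (Ser k d) x) = 0 := minpoly.aeval _ _
    have h0 : (minpoly (Ser k d) x).coeff 0 ∈ maximalIdeal (Ser k d) := by
      refine (mem_maximalIdeal _).2 fun hu => hx ?_
      rw [← divX_mul_X_add (minpoly (Ser k d) x), map_add, map_mul, aeval_X, aeval_C,
        add_eq_zero_iff_eq_neg] at hev
      exact isUnit_of_mul_isUnit_right (hev ▸ (hu.map (algebraMap (Ser k d) (T0 k d))).neg)
    refine ⟨(minpoly (Ser k d) x).natDegree, ?_⟩
    rw [Polynomial.aeval_eq_sum_range, Finset.sum_range_succ, hf.coeff_natDegree, one_smul,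
      add_eq_zero_iff_eq_neg'] at hev
    rw [hev]
    refine neg_mem (Submodule.sum_mem _ fun i hi => ?_)
    rw [Algebra.smul_def]
    exact Ideal.mul_mem_right _ _ (Ideal.mem_map_of_mem _ (coeff_mem_of_irreducible hf
      (minpoly.irreducible hint) h0 (Finset.mem_range.1 hi)))
  · obtain ⟨w⟩ := ordVal_exists k d
    exact (ne_of_gt (w.pos_of_mem h)) (w.eq_zero_of_isUnit hu)

variable (k d) in
theorem isLocalRing_t0 : IsLocalRing (T0 k d) := by
  refine IsLocalRing.of_nonunits_add fun a b ha hb => ?_
  rw [mem_nonunits_iff, not_isUnit_iff] at ha hb ⊢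
  exact add_mem ha hb

theorem exists_sub_not_isUnit [IsAlgClosed k] (a : T0 k d) :
    ∃ c : k, ¬ IsUnit (a - algebraMap (Ser k d) (T0 k d) (MvPowerSeries.C c)) := by
  have hint : IsIntegral (Ser k d) a := Algebra.IsIntegral.isIntegral a
  set f := minpoly (Ser k d) a
  have hsplit := IsAlgClosed.splits (f.map (MvPowerSeries.constantCoeff (σ := Fin (d + 1)) (R := k)))
  have hfbar : (f.map MvPowerSeries.constantCoeff).Monic := (minpoly.monic hint).map _
  set g : (Ser k d)[X] :=
    ((f.map MvPowerSeries.constantCoeff).roots.map fun c => X - C (MvPowerSeries.C c)).prod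
  have hprod := hsplit.eq_prod_roots_of_monic hfbar
  have hg : g.map MvPowerSeries.constantCoeff = f.map MvPowerSeries.constantCoeff := by
    conv_rhs => rw [hprod]
    rw [Polynomial.map_multiset_prod, Multiset.map_map]
    simp
  have hmem : Polynomial.aeval a g ∈ (maximalIdeal (Ser k d)).map (algebraMap (Ser k d) (T0 k d)) := by
    have h : Polynomial.aeval a g = Polynomial.aeval a (g - f) := by
      rw [map_sub, minpoly.aeval, sub_zero]
    rw [h, Polynomial.aeval_eq_sum_range]
    refine Submodule.sum_mem _ fun i _ => ?_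
    rw [Algebra.smul_def]
    refine Ideal.mul_mem_right _ _ (Ideal.mem_map_of_mem _ ?_)
    rw [mem_maximalIdeal, mem_nonunits_iff, MvPowerSeries.isUnit_iff_constantCoeff,
      isUnit_iff_ne_zero, not_not, ← Polynomial.coeff_map, Polynomial.map_sub, hg, sub_self,
      Polynomial.coeff_zero]
  by_contra! h
  refine ((not_isUnit_iff (Polynomial.aeval a g)).2 (Ideal.le_radical hmem)) ?_
  rw [map_multiset_prod, Multiset.map_map]
  refine Multiset.prod_induction (fun z => IsUnit z) _ (fun _ _ => IsUnit.mul) isUnit_one ?_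
  intro z hz
  obtain ⟨c, -, rfl⟩ := Multiset.mem_map.1 hz
  simpa using h c

/-- `T0` is local with residue field `k`, and the maximal ideal has positive valuation. -/
theorem localStatement : LocalStatement.{u} := fun k _ _ d => by
  refine ⟨isLocalRing_t0 k d, exists_sub_not_isUnit, fun a => ⟨fun h w => w.eq_zero_of_isUnit h,
    fun h => ?_⟩⟩
  by_contra ha
  obtain ⟨w⟩ := ordVal_exists k d
  exact (ne_of_gt (w.pos_of_mem ((not_isUnit_iff a).1 ha))) (h w)

end Vale.Agent.P202.Mixed.Field
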