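import Vale.Agent.P202.Mixed.Field.Regular

/-!
# P202 mixed characteristic, block A2: `T0` as a subring of the algebraic closure
-/

noncomputable section

namespace Vale.Agent.P202.Mixed.Field

universe u

variable (p : ℕ) [Fact p.Prime] (k : Type u) [_root_.Field k] [CharP k p] (d : ℕ)

/-- `T0` as a subring. -/
abbrev t0Sub : Subring (Kbar k d) := (integralClosure (Ser k d) (Kbar k d)).toSubring

/-- Elements of `T0` have `p`-th roots in it. -/
theorem t0Sub_roots : ∀ a ∈ t0Sub k d, ∃ c ∈ t0Sub k d, c ^ p = a := by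
  intro a ha
  obtain ⟨b, hb⟩ := (PerfectRing.bijective_frobenius (R := T0 k d) (p := p)).2 ⟨a, ha⟩
  exact ⟨b.1, b.2, congrArg Subtype.val hb⟩

omit [Fact p.Prime] [CharP k p] in
/-- `T0` is the intersection of the valuation rings containing it. -/
theorem t0Sub_closed (a : Kbar k d)
    (h : ∀ V : ValuationSubring (Kbar k d), t0Sub k d ≤ V.toSubring → a ∈ V) : a ∈ t0Sub k d := by
  by_contra ha
  have : IsIntegrallyClosedIn (t0Sub k d) (Kbar k d) :=
    Subring.isIntegrallyClosedIn_iff.2 fun {x} hx => mem_of_isIntegral k d hx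
  obtain ⟨V, hV, hVa⟩ := Subring.exists_le_valuationSubring_of_isIntegrallyClosedIn ha
  exact hVa (h V hV)

omit [Fact p.Prime] [CharP k p] in
/-- An element congruent modulo `t` to a nonzero series free of the first variable is prime to a
divisor `t` of a series regular in that variable. -/
theorem dvd_of_dvd_mul_congr {g G : Ser k d} {t γ : T0 k d}
    (hg : ∃ e : ℕ, MvPowerSeries.coeff (Finsupp.single 0 e) g ≠ 0)
    (hG : ∀ s : Fin (d + 1) →₀ ℕ, s 0 ≠ 0 → MvPowerSeries.coeff s G = 0) (hG0 : G ≠ 0)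
    (htg : t ∣ algebraMap (Ser k d) (T0 k d) g) (hγ : t ∣ γ - algebraMap (Ser k d) (T0 k d) G)
    (a : T0 k d) (h : t ∣ γ * a) : t ∣ a := by
  refine regularStatement k d g G t hg hG hG0 htg a ?_
  have e : algebraMap (Ser k d) (T0 k d) G * a =
      γ * a - (γ - algebraMap (Ser k d) (T0 k d) G) * a := by ring
  rw [e]
  exact dvd_sub h (hγ.mul_right a)

end Vale.Agent.P202.Mixed.Field
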