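import Vale.Agent.P202.RingSide.Hilbert

/-!
# P202 mixed characteristic, block A2: the field level

`T0` is the integral closure of `k[[X_0, ..., X_d]]` in an algebraic closure of its fraction field.
This file defines it, the valuations extending the order function, the finite levels, and states
the facts about them that the other blocks use.
-/

noncomputable section

namespace Vale.Agent.P202.Mixed.Field

open IsLocalRing

universe u

variable (p : ℕ) [Fact p.Prime] (k : Type u) [_root_.Field k] [CharP k p] (d : ℕ)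

/-- The power series ring in `d + 1` variables. -/
abbrev Ser : Type u := MvPowerSeries (Fin (d + 1)) k

/-- An algebraic closure of the fraction field of the power series ring. -/
abbrev Kbar : Type u := AlgebraicClosure (FractionRing (Ser k d))

/-- The integral closure of the power series ring in that algebraic closure. -/
abbrev T0 : Type u := ↥(integralClosure (Ser k d) (Kbar k d))

instance : IsDomain (Ser k d) := NoZeroDivisors.to_isDomain _

instance : CharP (Ser k d) p :=
  charP_of_injective_algebraMap (algebraMap k (Ser k d)).injective p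

theorem algebraMap_kbar_injective : Function.Injective (algebraMap (Ser k d) (Kbar k d)) := by
  rw [IsScalarTower.algebraMap_eq (Ser k d) (FractionRing (Ser k d)) (Kbar k d)]
  exact (algebraMap (FractionRing (Ser k d)) (Kbar k d)).injective.comp
    (IsFractionRing.injective _ _)

theorem algebraMap_t0_injective : Function.Injective (algebraMap (Ser k d) (T0 k d)) := fun _ _ h =>
  algebraMap_kbar_injective k d (congrArg Subtype.val h)

instance : CharP (T0 k d) p :=
  charP_of_injective_ringHom (algebraMap_t0_injective k d) p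

instance : ExpChar (T0 k d) p := .prime Fact.out

/-- Monic polynomials over `T0` have roots in `T0`. -/
theorem exists_root (f : Polynomial (T0 k d)) (hf : f.Monic) (hd : f.natDegree ≠ 0) :
    ∃ a : T0 k d, f.eval a = 0 := by
  obtain ⟨x, hx⟩ := IsAlgClosed.exists_root (f.map (algebraMap (T0 k d) (Kbar k d))) (by
    rw [Polynomial.degree_eq_natDegree (hf.map _).ne_zero, hf.natDegree_map]
    exact_mod_cast hd)
  have hint : IsIntegral (T0 k d) x := ⟨f, hf, by
    rw [← Polynomial.eval_map]
    exact hx⟩
  refine ⟨⟨x, isIntegral_trans (R := Ser k d) x hint⟩, ?_⟩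
  apply Subtype.val_injective
  rw [Polynomial.IsRoot, Polynomial.eval_map] at hx
  exact (Polynomial.eval₂_at_apply (algebraMap (T0 k d) (Kbar k d)) _).symm.trans hx

instance : PerfectRing (T0 k d) p := .ofSurjective _ p fun a => by
  obtain ⟨b, hb⟩ := exists_root k d (Polynomial.X ^ p - Polynomial.C a)
    (Polynomial.monic_X_pow_sub_C a (Fact.out : p.Prime).ne_zero)
    (by rw [Polynomial.natDegree_X_pow_sub_C]; exact (Fact.out : p.Prime).ne_zero)
  exact ⟨b, by simpa [frobenius_def, sub_eq_zero] using hb⟩

/-- An element of the algebraic closure integral over `T0` lies in `T0`. -/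
theorem mem_of_isIntegral {x : Kbar k d} (hx : IsIntegral (T0 k d) x) :
    x ∈ integralClosure (Ser k d) (Kbar k d) :=
  isIntegral_trans x hx

instance : Algebra.IsAlgebraic (Ser k d) (Kbar k d) :=
  (IsFractionRing.comap_isAlgebraic_iff (A := Ser k d) (K := FractionRing (Ser k d))
    (C := Kbar k d)).2 inferInstance

instance : IsFractionRing (T0 k d) (Kbar k d) :=
  integralClosure.isFractionRing_of_algebraic
    (fun x hx => algebraMap_kbar_injective k d (by rw [hx, map_zero]))

instance : IsIntegrallyClosed (T0 k d) :=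
  (isIntegrallyClosed_iff (Kbar k d)).2 fun {x} hx => ⟨⟨x, mem_of_isIntegral k d hx⟩, rfl⟩

/-- The `p^m`-th root. -/
def root (m : ℕ) : T0 k d →+* T0 k d := (iterateFrobeniusEquiv (T0 k d) p m).symm.toRingHom

theorem root_pow (m : ℕ) (a : T0 k d) : root p k d m a ^ p ^ m = a := by
  rw [root, RingEquiv.toRingHom_eq_coe, RingHom.coe_coe, ← iterateFrobeniusEquiv_def,
    RingEquiv.apply_symm_apply]

theorem pow_injective (m : ℕ) : Function.Injective fun a : T0 k d => a ^ p ^ m :=
  fun a b h => (iterateFrobeniusEquiv (T0 k d) p m).injective (by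
    rw [iterateFrobeniusEquiv_def, iterateFrobeniusEquiv_def]; exact h)

/-- Power series in the `p^m`-th roots of the variables: the `k`-algebra map sending each variable
to its `p^m`-th root. -/
def psiRoot (m : ℕ) : Ser k d →+* T0 k d :=
  (root p k d m).comp ((algebraMap (Ser k d) (T0 k d)).comp
    (MvPowerSeries.map (iterateFrobenius k p m)))

theorem psiRoot_pow (m : ℕ) (f : Ser k d) :
    psiRoot p k d m f ^ p ^ m =
      algebraMap (Ser k d) (T0 k d) (MvPowerSeries.map (iterateFrobenius k p m) f) :=
  root_pow p k d m _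

/-- The order of a power series, as a natural number. -/
def ord (f : Ser k d) : ℕ := f.order.toNat

/-- A valuation on the algebraic closure extending the order, nonnegative on `T0`. -/
structure OrdVal where
  v : AddValuation (Kbar k d) (WithTop ℝ)
  nonneg : ∀ a : T0 k d, 0 ≤ v (a : Kbar k d)
  eq_ord : ∀ f : Ser k d, f ≠ 0 → v (algebraMap (Ser k d) (Kbar k d) f) = ((ord k d f : ℝ) : WithTop ℝ)

variable {k d} in
/-- The value at an element of `T0`. -/
def OrdVal.at (w : OrdVal k d) (a : T0 k d) : WithTop ℝ := w.v (a : Kbar k d)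

/-- A finite separable level: a subring of `T0` containing the power series, with elements `beta`
whose `p^i`-th powers are independent over the power series and generate up to `c ^ p ^ i`, with
coordinates of order at least the valuation. -/
structure Level where
  carrier : Subring (T0 k d)
  r : ℕ
  r_pos : 0 < r
  beta : Fin r → T0 k d
  beta_mem : ∀ j, beta j ∈ carrier
  c : Ser k d
  c_ne : c ≠ 0
  algebraMap_mem : ∀ f, algebraMap (Ser k d) (T0 k d) f ∈ carrier
  saturated : ∀ a ∈ carrier, a ≠ 0 → ∀ b : T0 k d, b * a ∈ carrier → b ∈ carrier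
  exists_coord : ∀ i : ℕ, ∀ b ∈ carrier, ∀ μ : ℝ,
    (∀ w : OrdVal k d, (μ : WithTop ℝ) ≤ w.at b) →
    ∃ f : Fin r → Ser k d,
      algebraMap (Ser k d) (T0 k d) (c ^ p ^ i) * b =
        ∑ j, algebraMap (Ser k d) (T0 k d) (f j) * beta j ^ p ^ i ∧
      ∀ j (s : Fin (d + 1) →₀ ℕ), (s.degree : ℝ) < μ → MvPowerSeries.coeff s (f j) = 0
  indep : ∀ i : ℕ, ∀ f : Fin r → Ser k d,
    ∑ j, algebraMap (Ser k d) (T0 k d) (f j) * beta j ^ p ^ i = 0 → ∀ j, f j = 0
  ord_det_le : ∀ i : ℕ, ∀ (b : T0 k d) (Γ : Matrix (Fin r) (Fin r) (Ser k d)) (μ : ℝ),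
    (∀ j, b * beta j ^ p ^ i = ∑ l, algebraMap (Ser k d) (T0 k d) (Γ l j) * beta l ^ p ^ i) →
    (∀ w : OrdVal k d, w.at b ≤ (μ : WithTop ℝ)) →
    Γ.det ≠ 0 ∧ (ord k d Γ.det : ℝ) ≤ (r : ℝ) * μ

/-- There are valuations extending the order. -/
def OrdValStatement : Prop :=
  ∀ (k : Type u) [_root_.Field k] (d : ℕ), Nonempty (OrdVal k d)

/-- `T0` is local with residue field `k`, and the maximal ideal has positive valuation. -/
def LocalStatement : Prop :=
  ∀ (k : Type u) [_root_.Field k] [IsAlgClosed k] (d : ℕ),
    IsLocalRing (T0 k d) ∧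
      (∀ a : T0 k d, ∃ c : k,
        ¬ IsUnit (a - algebraMap (Ser k d) (T0 k d) (MvPowerSeries.C c))) ∧
      (∀ a : T0 k d, IsUnit a ↔ ∀ w : OrdVal k d, w.at a = 0)

/-- Every finite set of elements of `T0` has a common power in a finite separable level. -/
def LevelStatement : Prop :=
  ∀ (p : ℕ) [Fact p.Prime] (k : Type u) [_root_.Field k] [CharP k p] (d : ℕ) (S : Finset (T0 k d)),
    ∃ (Lv : Level p k d) (f : ℕ), ∀ a ∈ S, a ^ p ^ f ∈ Lv.carrier

/-- A divisor in `T0` of a series regular in the first variable is prime to the series free of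
it. -/
def RegularStatement : Prop :=
  ∀ (k : Type u) [_root_.Field k] (d : ℕ) (g G : Ser k d) (t : T0 k d),
    (∃ e : ℕ, MvPowerSeries.coeff (Finsupp.single 0 e) g ≠ 0) →
    (∀ s : Fin (d + 1) →₀ ℕ, s 0 ≠ 0 → MvPowerSeries.coeff s G = 0) → G ≠ 0 →
    t ∣ algebraMap (Ser k d) (T0 k d) g →
    ∀ a : T0 k d, t ∣ algebraMap (Ser k d) (T0 k d) G * a → t ∣ a

end Vale.Agent.P202.Mixed.Field
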