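import Vale.Agent.P202.Mixed.Field.Ord

/-!
# P202 mixed characteristic, block A2: valuations extending the order

A valuation subring of the algebraic closure dominating the valuation ring of the order has value
group torsion over the integers; this gives a real valued valuation extending the order.
-/

noncomputable section

namespace Vale.Agent.P202.Mixed.Field

universe u

variable (k : Type u) [_root_.Field k] (d : ℕ)

/-- The valuation ring of the order, inside the algebraic closure. -/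
def ordRing : Subring (Kbar k d) where
  carrier := {x | ∃ a b : Ser k d, b ≠ 0 ∧ x * (algebraMap (Ser k d) (Kbar k d)) b = (algebraMap (Ser k d) (Kbar k d)) a ∧ b.order ≤ a.order}
  zero_mem' := ⟨0, 1, one_ne_zero, by simp, by simp⟩
  one_mem' := ⟨1, 1, one_ne_zero, by simp, le_rfl⟩
  neg_mem' := fun {x} ⟨a, b, hb, e, h⟩ => ⟨-a, b, hb, by simp [e], by rwa [MvPowerSeries.order_neg]⟩
  mul_mem' := fun {x y} ⟨a, b, hb, e, h⟩ ⟨a', b', hb', e', h'⟩ => ⟨a * a', b * b',
    mul_ne_zero hb hb', by rw [map_mul, map_mul, ← e, ← e']; ring, by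
      rw [MvPowerSeries.order_mul, MvPowerSeries.order_mul]; exact add_le_add h h'⟩
  add_mem' := fun {x y} ⟨a, b, hb, e, h⟩ ⟨a', b', hb', e', h'⟩ => ⟨a * b' + a' * b, b * b',
    mul_ne_zero hb hb', by rw [map_add, map_mul, map_mul, map_mul, ← e, ← e']; ring, by
      refine le_trans (le_min ?_ ?_) MvPowerSeries.min_order_le_add
      · rw [MvPowerSeries.order_mul, MvPowerSeries.order_mul]; exact add_le_add h le_rfl
      · rw [MvPowerSeries.order_mul, MvPowerSeries.order_mul, add_comm a'.order]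
        exact add_le_add le_rfl h'⟩

/-- Its maximal ideal. -/
def ordIdeal : Ideal (ordRing k d) where
  carrier := {x | ∃ a b : Ser k d, b ≠ 0 ∧ (x : Kbar k d) * (algebraMap (Ser k d) (Kbar k d)) b = (algebraMap (Ser k d) (Kbar k d)) a ∧ b.order < a.order}
  zero_mem' := ⟨0, 1, one_ne_zero, by simp, by
    rw [MvPowerSeries.order_zero]
    exact lt_top_iff_ne_top.2 (by simp [MvPowerSeries.order_eq_top_iff])⟩
  add_mem' := fun {x y} ⟨a, b, hb, e, h⟩ ⟨a', b', hb', e', h'⟩ => ⟨a * b' + a' * b, b * b',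
    mul_ne_zero hb hb', by
      rw [Subring.coe_add, map_add, map_mul, map_mul, map_mul, ← e, ← e']; ring, by
      refine lt_of_lt_of_le (lt_min ?_ ?_) MvPowerSeries.min_order_le_add
      · rw [MvPowerSeries.order_mul, MvPowerSeries.order_mul]
        exact WithTop.add_lt_add_right (order_ne_top hb') h
      · rw [MvPowerSeries.order_mul, MvPowerSeries.order_mul, add_comm a'.order]
        exact WithTop.add_lt_add_left (order_ne_top hb) h'⟩
  smul_mem' := fun c x ⟨a', b', hb', e', h'⟩ => by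
    obtain ⟨a, b, hb, e, h⟩ := c.2
    refine ⟨a * a', b * b', mul_ne_zero hb hb', ?_, ?_⟩
    · rw [smul_eq_mul, Subring.coe_mul, map_mul, map_mul, ← e, ← e']; ring
    · rw [MvPowerSeries.order_mul, MvPowerSeries.order_mul]
      exact WithTop.add_lt_add_of_le_of_lt (order_ne_top hb) h h'

theorem ordIdeal_ne_top : ordIdeal k d ≠ ⊤ := by
  rw [Ne, Ideal.eq_top_iff_one]
  rintro ⟨a, b, -, e, h⟩
  rw [OneMemClass.coe_one, one_mul] at e
  rw [algebraMap_kbar_injective k d e] at h
  exact lt_irrefl _ h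

theorem exists_ordSubring : ∃ O : ValuationSubring (Kbar k d), ∀ a b : Ser k d, a ≠ 0 → b ≠ 0 →
    (O.valuation ((algebraMap (Ser k d) (Kbar k d)) a) ≤ O.valuation ((algebraMap (Ser k d) (Kbar k d)) b) ↔ ord k d b ≤ ord k d a) := by
  obtain ⟨O, hA, hI⟩ := Ideal.image_subset_nonunits_valuationSubring _ (ordIdeal_ne_top k d)
  have hne : ∀ {a : Ser k d}, a ≠ 0 → (algebraMap (Ser k d) (Kbar k d)) a ≠ 0 := fun ha =>
    (map_ne_zero_iff _ (algebraMap_kbar_injective k d)).2 ha
  have h1 : ∀ a b : Ser k d, b ≠ 0 → b.order ≤ a.order →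
      O.valuation ((algebraMap (Ser k d) (Kbar k d)) a) ≤ O.valuation ((algebraMap (Ser k d) (Kbar k d)) b) := fun a b hb h => by
    have hm : (algebraMap (Ser k d) (Kbar k d)) a * ((algebraMap (Ser k d) (Kbar k d)) b)⁻¹ ∈ O := hA ⟨a, b, hb, by rw [inv_mul_cancel_right₀ (hne hb)], h⟩
    rw [← O.valuation_le_one_iff, map_mul, map_inv₀] at hm
    rwa [mul_inv_le_iff₀ (zero_lt_iff.2 (O.valuation.ne_zero_iff.2 (hne hb))), one_mul] at hm
  refine ⟨O, fun a b ha hb => ⟨fun h => ?_, fun h => h1 a b hb ?_⟩⟩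
  · by_contra h'
    push Not at h'
    have hlt : a.order < b.order := by
      rw [order_eq_ord ha, order_eq_ord hb]; exact_mod_cast h'
    have hm : (algebraMap (Ser k d) (Kbar k d)) b * ((algebraMap (Ser k d) (Kbar k d)) a)⁻¹ ∈ O.nonunits := hI
      ⟨⟨_, b, a, ha, inv_mul_cancel_right₀ (hne ha) _, hlt.le⟩,
        ⟨b, a, ha, inv_mul_cancel_right₀ (hne ha) _, hlt⟩, rfl⟩
    rw [ValuationSubring.mem_nonunits_iff, map_mul, map_inv₀,
      mul_inv_lt_iff₀ (zero_lt_iff.2 (O.valuation.ne_zero_iff.2 (hne ha))), one_mul] at hm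
    exact not_lt.2 h hm
  · rw [order_eq_ord ha, order_eq_ord hb]; exact_mod_cast h

/-- The chosen valuation ring. -/
def ordSubring : ValuationSubring (Kbar k d) := (exists_ordSubring k d).choose

theorem valuation_le_iff {a b : Ser k d} (ha : a ≠ 0) (hb : b ≠ 0) :
    ((ordSubring k d).valuation) ((algebraMap (Ser k d) (Kbar k d)) a) ≤ ((ordSubring k d).valuation) ((algebraMap (Ser k d) (Kbar k d)) b) ↔ ord k d b ≤ ord k d a :=
  (exists_ordSubring k d).choose_spec a b ha hb

/-- `q` is the slope of `x`: some power of `x` has the valuation of a quotient of series. -/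
def Slope (x : Kbar k d) (q : ℝ) : Prop :=
  ∃ (m : ℕ) (a b : Ser k d), 0 < m ∧ a ≠ 0 ∧ b ≠ 0 ∧ ((ordSubring k d).valuation) x ^ m * ((ordSubring k d).valuation) ((algebraMap (Ser k d) (Kbar k d)) b) = ((ordSubring k d).valuation) ((algebraMap (Ser k d) (Kbar k d)) a) ∧
    q = ((ord k d a : ℝ) - ord k d b) / m

theorem exists_slope {x : Kbar k d} (hx : x ≠ 0) : ∃ q, Slope k d x q := by
  classical
  obtain ⟨f, hf0, hf⟩ := Algebra.IsAlgebraic.isAlgebraic (R := Ser k d) x
  have hV : ((ordSubring k d).valuation) x ≠ 0 := (((ordSubring k d).valuation)).ne_zero_iff.2 hx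
  let T : ℕ → Kbar k d := fun i => (algebraMap (Ser k d) (Kbar k d)) (f.coeff i) * x ^ i
  obtain ⟨j, hj, hmax⟩ := f.support.exists_max_image (fun i => ((ordSubring k d).valuation) (T i))
    (Polynomial.support_nonempty.2 hf0)
  have hT : ∀ i ∈ f.support, T i ≠ 0 := fun i hi => mul_ne_zero
    ((map_ne_zero_iff _ (algebraMap_kbar_injective k d)).2 (Polynomial.mem_support_iff.1 hi))
    (pow_ne_zero _ hx)
  obtain ⟨i, hi, hij, he⟩ : ∃ i ∈ f.support, i ≠ j ∧ ((ordSubring k d).valuation) (T i) = ((ordSubring k d).valuation) (T j) := by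
    by_contra! h
    have := (((ordSubring k d).valuation)).map_sum_eq_of_lt hj (f := T) fun i hi => by
      simp only [Finset.mem_sdiff, Finset.mem_singleton] at hi
      exact lt_of_le_of_ne (hmax i hi.1) (h i hi.1 hi.2)
    rw [show ∑ i ∈ f.support, T i = 0 by
      rw [← hf, Polynomial.aeval_def, Polynomial.eval₂_eq_sum, Polynomial.sum], map_zero] at this
    exact (((ordSubring k d).valuation)).ne_zero_iff.2 (hT j hj) this.symm
  have key : ∀ i j, i ∈ f.support → j ∈ f.support → i < j → ((ordSubring k d).valuation) (T i) = ((ordSubring k d).valuation) (T j) →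
      ∃ q, Slope k d x q := fun i j hi hj hij he => by
    refine ⟨_, j - i, f.coeff i, f.coeff j, by omega, Polynomial.mem_support_iff.1 hi,
      Polynomial.mem_support_iff.1 hj, ?_, rfl⟩
    simp only [T, map_mul, map_pow] at he
    refine mul_right_cancel₀ (pow_ne_zero i hV) ?_
    rw [he, mul_right_comm, ← pow_add, Nat.sub_add_cancel hij.le, mul_comm]
  rcases lt_or_gt_of_ne hij with h | h
  · exact key i j hi hj h he
  · exact key j i hj hi h he.symm

theorem Slope.le {x y : Kbar k d} {q r : ℝ} (hx : Slope k d x q) (hy : Slope k d y r)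
    (h : ((ordSubring k d).valuation) x ≤ ((ordSubring k d).valuation) y) : r ≤ q := by
  obtain ⟨m, a, b, hm, ha, hb, e, rfl⟩ := hx
  obtain ⟨n, c, e', hn, hc, he', e2, rfl⟩ := hy
  have h1 : ((ordSubring k d).valuation) ((algebraMap (Ser k d) (Kbar k d)) (a ^ n * e' ^ m)) ≤ ((ordSubring k d).valuation) ((algebraMap (Ser k d) (Kbar k d)) (c ^ m * b ^ n)) := by
    simp only [map_mul, map_pow, ← e, ← e2, mul_pow, ← pow_mul, mul_comm n m]
    rw [mul_right_comm, mul_assoc, mul_assoc, mul_comm ((((ordSubring k d).valuation) ((algebraMap (Ser k d) (Kbar k d)) e')) ^ m)]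
    exact mul_le_mul' (pow_le_pow_left' h _) (le_of_eq (by ac_rfl))
  rw [valuation_le_iff k d (mul_ne_zero (pow_ne_zero _ ha) (pow_ne_zero _ he'))
    (mul_ne_zero (pow_ne_zero _ hc) (pow_ne_zero _ hb)), ord_mul (pow_ne_zero _ hc)
    (pow_ne_zero _ hb), ord_mul (pow_ne_zero _ ha) (pow_ne_zero _ he'), ord_pow hc, ord_pow hb,
    ord_pow ha, ord_pow he'] at h1
  have h2 : ((m * ord k d c + n * ord k d b : ℕ) : ℝ) ≤ ((n * ord k d a + m * ord k d e' : ℕ) : ℝ) :=
    by exact_mod_cast h1
  push_cast at h2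
  rw [div_le_div_iff₀ (by exact_mod_cast hn) (by exact_mod_cast hm)]
  nlinarith

/-- The real valuation. -/
def wFun (x : Kbar k d) : WithTop ℝ :=
  open Classical in
  if h : x = 0 then ⊤ else ((exists_slope k d h).choose : ℝ)

theorem wFun_eq {x : Kbar k d} {q : ℝ} (hx : x ≠ 0) (h : Slope k d x q) :
    wFun k d x = (q : WithTop ℝ) := by
  rw [wFun, dif_neg hx]
  exact congrArg _ (le_antisymm (h.le k d (exists_slope k d hx).choose_spec le_rfl)
    ((exists_slope k d hx).choose_spec.le k d h le_rfl))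

theorem wFun_anti {x y : Kbar k d} (h : ((ordSubring k d).valuation) x ≤ ((ordSubring k d).valuation) y) : wFun k d y ≤ wFun k d x := by
  by_cases hx : x = 0
  · simp [wFun, hx]
  have hy : y ≠ 0 := fun hy => (((ordSubring k d).valuation)).ne_zero_iff.2 hx (le_zero_iff.1 (h.trans (by simp [hy])))
  obtain ⟨q, hq⟩ := exists_slope k d hx
  obtain ⟨r, hr⟩ := exists_slope k d hy
  rw [wFun_eq k d hx hq, wFun_eq k d hy hr]
  exact WithTop.coe_le_coe.2 (hq.le k d hr h)

theorem wFun_mul (x y : Kbar k d) : wFun k d (x * y) = wFun k d x + wFun k d y := by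
  by_cases hx : x = 0
  · simp [wFun, hx]
  by_cases hy : y = 0
  · simp [wFun, hy]
  obtain ⟨q, hq⟩ := exists_slope k d hx
  obtain ⟨r, hr⟩ := exists_slope k d hy
  rw [wFun_eq k d hx hq, wFun_eq k d hy hr, ← WithTop.coe_add]
  refine wFun_eq k d (mul_ne_zero hx hy) ?_
  obtain ⟨m, a, b, hm, ha, hb, e, rfl⟩ := hq
  obtain ⟨n, c, e', hn, hc, he', e2, rfl⟩ := hr
  refine ⟨m * n, a ^ n * c ^ m, b ^ n * e' ^ m, Nat.mul_pos hm hn,
    mul_ne_zero (pow_ne_zero _ ha) (pow_ne_zero _ hc),
    mul_ne_zero (pow_ne_zero _ hb) (pow_ne_zero _ he'), ?_, ?_⟩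
  · simp only [map_mul, map_pow, ← e, ← e2, mul_pow, ← pow_mul, mul_comm n m]
    exact mul_mul_mul_comm _ _ _ _
  · rw [ord_mul (pow_ne_zero _ ha) (pow_ne_zero _ hc), ord_mul (pow_ne_zero _ hb)
      (pow_ne_zero _ he'), ord_pow ha, ord_pow hb, ord_pow hc, ord_pow he']
    push_cast
    field_simp
    ring

theorem wFun_algebraMap {f : Ser k d} (hf : f ≠ 0) :
    wFun k d ((algebraMap (Ser k d) (Kbar k d)) f) = ((ord k d f : ℝ) : WithTop ℝ) := by
  refine wFun_eq k d ((map_ne_zero_iff _ (algebraMap_kbar_injective k d)).2 hf)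
    ⟨1, f, 1, one_pos, hf, one_ne_zero, by simp, ?_⟩
  rw [← pow_zero (1 : Ser k d), ord_pow one_ne_zero]
  simp

/-- A valuation extending the order. -/
def wVal : AddValuation (Kbar k d) (WithTop ℝ) :=
  AddValuation.of (wFun k d) (by simp [wFun])
    (by
      have := wFun_algebraMap k d (f := 1) one_ne_zero
      rw [map_one] at this
      rw [this, ← pow_zero (1 : Ser k d), ord_pow one_ne_zero]
      simp)
    (fun x y => by
      rcases le_total (((ordSubring k d).valuation) x) (((ordSubring k d).valuation) y) with h | h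
      · exact (min_le_right _ _).trans (wFun_anti k d (((((ordSubring k d).valuation)).map_add x y).trans (max_le h le_rfl)))
      · exact (min_le_left _ _).trans (wFun_anti k d (((((ordSubring k d).valuation)).map_add x y).trans (max_le le_rfl h))))
    (wFun_mul k d)

variable {k d} in
/-- A valuation extending the order is nonnegative on elements integral over the series. -/
theorem nonneg_of_isIntegral (v : AddValuation (Kbar k d) (WithTop ℝ))
    (hv : ∀ f : Ser k d, 0 ≤ v (algebraMap (Ser k d) (Kbar k d) f)) {x : Kbar k d}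
    (hx : IsIntegral (Ser k d) x) : 0 ≤ v x := by
  classical
  by_contra h
  push Not at h
  obtain ⟨f, hf, hfx⟩ := hx
  have hx0 : x ≠ 0 := fun h0 => by simp [h0] at h
  obtain ⟨q, hq⟩ := WithTop.ne_top_iff_exists.1 h.ne_top
  have hq0 : q < 0 := by rw [← hq] at h; exact_mod_cast h
  have key : v (x ^ f.natDegree) <
      v (∑ i ∈ Finset.range f.natDegree, algebraMap (Ser k d) (Kbar k d) (f.coeff i) * x ^ i) := by
    rw [v.map_pow, ← hq]
    refine lt_of_lt_of_le ?_ (v.map_le_sum (g := (((((f.natDegree : ℕ) : ℝ) - 1) * q : ℝ) : WithTop ℝ)) fun i hi => ?_)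
    · rw [← WithTop.coe_nsmul, WithTop.coe_lt_coe, nsmul_eq_mul]; linarith
    · rw [v.map_mul, v.map_pow, ← hq]
      refine le_trans ?_ (le_add_of_nonneg_left (hv _))
      rw [← WithTop.coe_nsmul, WithTop.coe_le_coe, nsmul_eq_mul]
      have : (i : ℝ) + 1 ≤ f.natDegree := by exact_mod_cast Finset.mem_range.1 hi
      nlinarith
  have e := hfx
  rw [Polynomial.eval₂_eq_sum_range, Finset.sum_range_succ, hf.coeff_natDegree, map_one, one_mul,
    add_eq_zero_iff_eq_neg'] at e
  rw [e, v.map_neg] at key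
  exact lt_irrefl _ key

theorem ordVal_exists : Nonempty (OrdVal k d) := by
  refine ⟨⟨wVal k d, fun a => nonneg_of_isIntegral _ (fun f => ?_) a.2,
    fun f hf => wFun_algebraMap k d hf⟩⟩
  by_cases hf : f = 0
  · simp [hf]
  · show 0 ≤ wFun k d ((algebraMap (Ser k d) (Kbar k d)) f)
    rw [wFun_algebraMap k d hf]
    exact_mod_cast (Nat.zero_le _)

end Vale.Agent.P202.Mixed.Field

namespace Vale.Agent.P202.Mixed.Field

universe u

/-- There are valuations extending the order. -/
theorem ordValStatement : OrdValStatement.{u} := fun k _ d => ordVal_exists k d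

end Vale.Agent.P202.Mixed.Field
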