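import Vale.Agent.P202.Mixed.Field.Normal
import Vale.Agent.P202.Mixed.Field.Val

/-!
# P202 mixed characteristic, block A2: finite separable levels

A basis in `T0` of a finite separable extension and the determinant of its trace form give the
coordinates, with no loss in the valuation.
-/

noncomputable section

namespace Vale.Agent.P202.Mixed.Field

open Matrix

universe u

variable (p : ℕ) [Fact p.Prime] (k : Type u) [_root_.Field k] [CharP k p] (d : ℕ)

/-- The fraction field of the power series. -/
abbrev Fr : Type u := FractionRing (Ser k d)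

instance : CharP (Fr k d) p := charP_of_injective_algebraMap (IsFractionRing.injective (Ser k d) (Fr k d)) p

instance : CharP (Kbar k d) p := charP_of_injective_algebraMap (algebraMap (Fr k d) (Kbar k d)).injective p

variable {k d}

theorem algebraMap_eq (f : Ser k d) :
    algebraMap (Ser k d) (Kbar k d) f = algebraMap (Fr k d) (Kbar k d) (algebraMap (Ser k d) (Fr k d) f) :=
  IsScalarTower.algebraMap_apply _ _ _ f

/-- The conjugate of a valuation by an embedding. -/
def OrdVal.conj (w : OrdVal k d) (τ : Kbar k d →ₐ[(Fr k d)] Kbar k d) : OrdVal k d where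
  v := w.v.comap τ.toRingHom
  nonneg a := by
    show 0 ≤ w.v (τ (a : Kbar k d))
    exact w.nonneg ⟨τ (a : Kbar k d), IsIntegral.map (τ.restrictScalars (Ser k d)) a.2⟩
  eq_ord f hf := by
    show w.v (τ (algebraMap (Ser k d) (Kbar k d) f)) = _
    rw [algebraMap_eq, AlgHom.commutes, ← algebraMap_eq]
    exact w.eq_ord f hf

theorem OrdVal.conj_at (w : OrdVal k d) (τ : Kbar k d →ₐ[(Fr k d)] Kbar k d) (a : T0 k d) :
    (w.conj τ).at a = w.v (τ (a : Kbar k d)) := rfl

theorem trace_pow_char (L : IntermediateField (Fr k d) (Kbar k d)) [FiniteDimensional (Fr k d) L] [Algebra.IsSeparable (Fr k d) L] (i : ℕ) (x : L) :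
    Algebra.trace (Fr k d) L (x ^ p ^ i) = Algebra.trace (Fr k d) L x ^ p ^ i := by
  apply (algebraMap (Fr k d) (Kbar k d)).injective
  rw [trace_eq_sum_embeddings (Kbar k d), map_pow, trace_eq_sum_embeddings (Kbar k d),
    sum_pow_char_pow]
  simp only [map_pow]

theorem exists_trace_eq (L : IntermediateField (Fr k d) (Kbar k d)) [FiniteDimensional (Fr k d) L] (x : L)
    (hx : IsIntegral (Ser k d) (x : Kbar k d)) :
    ∃ s : Ser k d, algebraMap (Ser k d) (Fr k d) s = Algebra.trace (Fr k d) L x := by
  have hx' : IsIntegral (Ser k d) x :=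
    (isIntegral_algHom_iff (L.val.restrictScalars (Ser k d)) L.val.injective).1 hx
  exact IsIntegrallyClosed.isIntegral_iff.1 (Algebra.isIntegral_trace hx')

theorem ord_trace_ge {L : IntermediateField (Fr k d) (Kbar k d)} [FiniteDimensional (Fr k d) L] [Algebra.IsSeparable (Fr k d) L] (x : T0 k d)
    (hxL : (x : Kbar k d) ∈ L) {s : Ser k d}
    (hs : algebraMap (Ser k d) (Fr k d) s = Algebra.trace (Fr k d) L ⟨(x : Kbar k d), hxL⟩) {μ : ℝ}
    (hμ : ∀ w : OrdVal k d, (μ : WithTop ℝ) ≤ w.at x) (h0 : s ≠ 0) : μ ≤ (ord k d s : ℝ) := by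
  obtain ⟨w⟩ := ordVal_exists k d
  have h1 : (μ : WithTop ℝ) ≤ w.v (algebraMap (Ser k d) (Kbar k d) s) := by
    rw [algebraMap_eq, hs, trace_eq_sum_embeddings (Kbar k d)]
    refine w.v.map_le_sum fun σ _ => ?_
    have := hμ (w.conj (σ.liftNormal (Kbar k d)))
    rw [OrdVal.conj_at] at this
    rwa [show σ ⟨(x : Kbar k d), hxL⟩ = σ.liftNormal (Kbar k d) (x : Kbar k d) from
      (σ.liftNormal_commutes (Kbar k d) ⟨(x : Kbar k d), hxL⟩).symm]
  rw [w.eq_ord s h0] at h1
  exact_mod_cast h1

/-- The level of a finite separable extension with a basis in `T0`. -/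
theorem exists_level_of (L : IntermediateField (Fr k d) (Kbar k d)) [FiniteDimensional (Fr k d) L]
    [Algebra.IsSeparable (Fr k d) L] :
    ∃ Lv : Level p k d, ∀ a : T0 k d, (a : Kbar k d) ∈ L → a ∈ Lv.carrier := by
  classical
  have hR : Function.Injective (algebraMap (Ser k d) (Fr k d)) := IsFractionRing.injective _ _
  let b₀ := Module.finBasis (Fr k d) L
  have hmul : ∀ j, ∃ y : Ser k d, y ≠ 0 ∧
      IsIntegral (Ser k d) (algebraMap (Ser k d) (Kbar k d) y * (b₀ j : Kbar k d)) := fun j => by
    obtain ⟨y, hy, h⟩ :=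
      (Algebra.IsAlgebraic.isAlgebraic (R := Ser k d) (b₀ j : Kbar k d)).exists_integral_multiple
    exact ⟨y, hy, by rwa [← Algebra.smul_def]⟩
  choose y hy hyint using hmul
  let B := b₀.isUnitSMul (w := fun j => algebraMap (Ser k d) (Fr k d) (y j))
    fun j => isUnit_iff_ne_zero.2 ((map_ne_zero_iff _ hR).2 (hy j))
  have hB : ∀ j, ((B j : L) : Kbar k d) = algebraMap (Ser k d) (Kbar k d) (y j) * (b₀ j : Kbar k d) :=
    fun j => by rw [Module.Basis.isUnitSMul_apply, IntermediateField.coe_smul, Algebra.smul_def,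
      ← algebraMap_eq]
  let β : Fin (Module.finrank (Fr k d) L) → T0 k d := fun j =>
    ⟨(B j : Kbar k d), by rw [mem_integralClosure_iff, hB]; exact hyint j⟩
  have hβL : ∀ j, (β j : Kbar k d) ∈ L := fun j => (B j).2
  let Bq : ℕ → Module.Basis (Fin (Module.finrank (Fr k d) L)) (Fr k d) L := fun i =>
    B.mapPowExpCharPowOfIsSeparable p i
  have hBq : ∀ i j, Bq i j = B j ^ p ^ i := fun i j => by
    simp [Bq, Module.Basis.mapPowExpCharPowOfIsSeparable]
  have hex : ∀ j l, ∃ s : Ser k d,
      algebraMap (Ser k d) (Fr k d) s = Algebra.trace (Fr k d) L (B j * B l) := fun j l =>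
    exists_trace_eq L _ (by
      rw [MulMemClass.coe_mul]; exact IsIntegral.mul (β j).2 (β l).2)
  choose t ht using hex
  let M : Matrix (Fin (Module.finrank (Fr k d) L)) (Fin (Module.finrank (Fr k d) L)) (Ser k d) := Matrix.of t
  have hM : ∀ i, (M.map (iterateFrobenius (Ser k d) p i)).map (algebraMap (Ser k d) (Fr k d)) =
      Algebra.traceMatrix (Fr k d) (Bq i) := fun i => by
    ext j l
    simp only [M, Matrix.map_apply, Matrix.of_apply, Algebra.traceMatrix_apply,
      Algebra.traceForm_apply, hBq, iterateFrobenius_def, map_pow, ht, ← mul_pow,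
      trace_pow_char p L]
  have hdet : M.det ≠ 0 := fun h => det_traceForm_ne_zero (Bq 0) (by
    rw [← Algebra.traceMatrix_of_basis, ← hM 0, ← RingHom.mapMatrix_apply, ← RingHom.map_det,
      ← RingHom.mapMatrix_apply, ← RingHom.map_det, h, map_zero, map_zero])
  let C0 : Subring (T0 k d) :=
    L.toSubalgebra.toSubring.comap (integralClosure (Ser k d) (Kbar k d)).val.toRingHom
  refine ⟨⟨C0, Module.finrank (Fr k d) L, Module.finrank_pos, β, hβL, M.det, hdet, ?_, ?_, ?_, ?_, ?_⟩,
    fun a ha => ha⟩
  · intro f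
    show algebraMap (Ser k d) (Kbar k d) f ∈ L
    rw [algebraMap_eq]
    exact L.algebraMap_mem _
  · intro a ha ha0 b hb
    show (b : Kbar k d) ∈ L
    rw [← mul_div_cancel_right₀ (b : Kbar k d) (fun h => ha0 (Subtype.val_injective h) :
      (a : Kbar k d) ≠ 0)]
    exact div_mem hb ha
  · intro i b hb μ hμ
    let bL : L := ⟨(b : Kbar k d), hb⟩
    have hex' : ∀ l, ∃ s : Ser k d,
        algebraMap (Ser k d) (Fr k d) s = Algebra.trace (Fr k d) L (bL * Bq i l) := fun l =>
      exists_trace_eq L _ (by
        rw [hBq, MulMemClass.coe_mul, SubmonoidClass.coe_pow]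
        exact IsIntegral.mul b.2 ((β l).2.pow _))
    choose s hs using hex'
    let Mi := M.map (iterateFrobenius (Ser k d) p i)
    refine ⟨Mi.adjugate *ᵥ s, ?_, fun j u hu => ?_⟩
    · have h1 : (Bq i).equivFun bL = fun j => (Bq i).repr bL j := rfl
      have h2 := Algebra.traceMatrix_of_basis_mulVec (Bq i) bL
      rw [← hM i] at h2
      have h3 : (fun l => Algebra.trace (Fr k d) L (bL * Bq i l)) =
          algebraMap (Ser k d) (Fr k d) ∘ s := funext fun l => (hs l).symm
      rw [h3] at h2
      have h4 : ∀ j, algebraMap (Ser k d) (Fr k d) ((Mi.adjugate *ᵥ s) j) =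
          algebraMap (Ser k d) (Fr k d) (M.det ^ p ^ i) * (Bq i).equivFun bL j := by
        intro j
        rw [RingHom.map_mulVec, ← h2, Matrix.mulVec_mulVec, ← Matrix.map_mul,
          Matrix.adjugate_mul, ← iterateFrobenius_def (R := Ser k d) (p := p), RingHom.map_det]
        simp [Mi, RingHom.mapMatrix_apply, Algebra.smul_def,
          Matrix.algebraMap_eq_diagonal, Matrix.mulVec_diagonal]
      have h5 : algebraMap (Ser k d) (Fr k d) (M.det ^ p ^ i) • bL =
          ∑ j, algebraMap (Ser k d) (Fr k d) ((Mi.adjugate *ᵥ s) j) • Bq i j := by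
        simp only [h4, mul_smul, ← Finset.smul_sum, Module.Basis.sum_equivFun]
      have h6 := congrArg (fun z : L => (z : Kbar k d)) h5
      apply Subtype.val_injective
      simp only [IntermediateField.coe_sum, hBq, Algebra.smul_def] at h6
      simpa [β, bL, algebraMap_eq] using h6
    · rw [Matrix.mulVec, dotProduct, map_sum]
      refine Finset.sum_eq_zero fun l _ => ?_
      by_cases hz : Mi.adjugate j l * s l = 0
      · simp [hz]
      refine coeff_eq_zero_of_lt_ord ?_
      have hsl : s l ≠ 0 := right_ne_zero_of_mul hz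
      have hge : μ ≤ (ord k d (s l) : ℝ) := by
        refine ord_trace_ge (b * β l ^ p ^ i) (mul_mem hb (pow_mem (hβL l) _)) ?_
          (fun w => ?_) hsl
        · rw [hs l]
          congr 1
          apply Subtype.val_injective
          rw [hBq]
          rfl
        · refine (hμ w).trans ?_
          show w.v _ ≤ w.v ((b : Kbar k d) * _)
          rw [w.v.map_mul]
          exact le_add_of_nonneg_right (w.nonneg _)
      rw [ord_mul (left_ne_zero_of_mul hz) hsl]
      have : (u.degree : ℝ) < (ord k d (s l) : ℝ) := lt_of_lt_of_le hu hge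
      have : u.degree < ord k d (s l) := by exact_mod_cast this
      omega
  · intro i f hf
    have h1 : ∑ j, algebraMap (Ser k d) (Fr k d) (f j) • Bq i j = 0 := by
      apply Subtype.val_injective
      have h := congrArg (fun z : T0 k d => (z : Kbar k d)) hf
      simp only [IntermediateField.coe_sum, hBq,
        Algebra.smul_def]
      simpa [β, algebraMap_eq] using h
    intro j
    exact hR ((Fintype.linearIndependent_iff.1 (Bq i).linearIndependent _ h1 j).trans
      (map_zero _).symm)
  · intro i b Γ μ hΓ hμ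
    obtain ⟨w⟩ := ordVal_exists k d
    have hb0 : (b : Kbar k d) ≠ 0 := fun h => by
      have := hμ w
      rw [OrdVal.at, h, w.v.map_zero] at this
      exact WithTop.coe_ne_top (top_le_iff.1 this)
    have hr : 0 < Module.finrank (Fr k d) L := Module.finrank_pos
    let j₀ : Fin (Module.finrank (Fr k d) L) := ⟨0, hr⟩
    have hΓK : ∀ j, (b : Kbar k d) * (Bq i j : Kbar k d) =
        ((∑ l, algebraMap (Ser k d) (Fr k d) (Γ l j) • Bq i l : L) : Kbar k d) := fun j => by
      have h := congrArg (fun z : T0 k d => (z : Kbar k d)) (hΓ j)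
      simp only [IntermediateField.coe_sum, hBq,
        SubmonoidClass.coe_pow, Algebra.smul_def]
      simpa [β, algebraMap_eq] using h
    have hbL : (b : Kbar k d) ∈ L := by
      rw [eq_div_iff_mul_eq (fun h => (Bq i).ne_zero j₀ (Subtype.val_injective h)) |>.2 (hΓK j₀)]
      exact div_mem (Subtype.prop _) (Bq i j₀).2
    let bL : L := ⟨(b : Kbar k d), hbL⟩
    have hmat : Algebra.leftMulMatrix (Bq i) bL = Γ.map (algebraMap (Ser k d) (Fr k d)) := by
      ext l j
      rw [Algebra.leftMulMatrix_eq_repr_mul, Matrix.map_apply,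
        show bL * Bq i j = _ from Subtype.val_injective (hΓK j)]
      exact congrFun ((Bq i).repr_sum_self fun l => algebraMap (Ser k d) (Fr k d) (Γ l j)) l
    have hN : algebraMap (Ser k d) (Kbar k d) Γ.det = ∏ σ : L →ₐ[(Fr k d)] Kbar k d, σ bL := by
      rw [← Algebra.norm_eq_prod_embeddings (Fr k d) (Kbar k d) bL, Algebra.norm_eq_matrix_det (Bq i),
        hmat, ← RingHom.mapMatrix_apply, ← RingHom.map_det, ← algebraMap_eq]
    have hσ0 : ∀ σ : L →ₐ[(Fr k d)] Kbar k d, σ bL ≠ 0 := fun σ =>
      (map_ne_zero σ).2 fun h => hb0 (congrArg Subtype.val h)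
    have hd0 : Γ.det ≠ 0 := fun h => by
      rw [h, map_zero] at hN
      exact (Finset.prod_ne_zero_iff.2 fun σ _ => hσ0 σ) hN.symm
    refine ⟨hd0, ?_⟩
    have h1 := w.eq_ord _ hd0
    rw [hN] at h1
    have hprod : ∀ S : Finset (L →ₐ[(Fr k d)] Kbar k d),
        w.v (∏ σ ∈ S, σ bL) ≤ ((S.card : ℝ) * μ : ℝ) := by
      intro S
      induction S using Finset.cons_induction with
      | empty => simp
      | cons σ S hσ ih =>
        rw [Finset.prod_cons, w.v.map_mul, Finset.card_cons, Nat.cast_add_one, add_one_mul,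
          add_comm ((S.card : ℝ) * μ), WithTop.coe_add]
        refine add_le_add ?_ ih
        have := hμ (w.conj (σ.liftNormal (Kbar k d)))
        rwa [OrdVal.conj_at, show σ.liftNormal (Kbar k d) (b : Kbar k d) = σ bL from
          σ.liftNormal_commutes (Kbar k d) bL] at this
    have h2 := hprod Finset.univ
    rw [h1, Finset.card_univ, AlgHom.card (Fr k d) L (Kbar k d), WithTop.coe_le_coe] at h2
    exact h2

/-- Every finite set of elements of `T0` has a common power in a finite separable level. -/
theorem levelStatement : LevelStatement.{u} := by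
  intro p _ k _ _ d S
  classical
  let E := separableClosure (FractionRing (Ser k d)) (Kbar k d)
  have : IsPurelyInseparable E (Kbar k d) := separableClosure.isPurelyInseparable _ _
  have : CharP E p := charP_of_injective_algebraMap (algebraMap (FractionRing (Ser k d)) E).injective p
  have hpow : ∀ a : T0 k d, ∃ n : ℕ, (a : Kbar k d) ^ p ^ n ∈ E := fun a => by
    obtain ⟨n, z, hz⟩ := IsPurelyInseparable.pow_mem E p (a : Kbar k d)
    exact ⟨n, hz ▸ z.2⟩
  choose n hn using hpow
  set f := S.sup n with hf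
  have hin : ∀ a ∈ S, (a : Kbar k d) ^ p ^ f ∈ E := fun a ha => by
    rw [← Nat.add_sub_cancel' (show n a ≤ f from Finset.le_sup ha), pow_add, pow_mul]
    exact pow_mem (hn a) _
  let T : Set (Kbar k d) := ↑(S.image fun a : T0 k d => (a : Kbar k d) ^ p ^ f)
  let L := IntermediateField.adjoin (FractionRing (Ser k d)) T
  have hT : ∀ x ∈ T, IsSeparable (FractionRing (Ser k d)) x := by
    intro x hx
    obtain ⟨a, ha, rfl⟩ := Finset.mem_image.1 (Finset.mem_coe.1 hx)
    exact mem_separableClosure_iff.1 (hin a ha)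
  have : Algebra.IsSeparable (FractionRing (Ser k d)) L :=
    (IntermediateField.isSeparable_adjoin_iff_isSeparable _ _).2 hT
  have : FiniteDimensional (FractionRing (Ser k d)) L := by
    have : Finite T := (S.image _).finite_toSet.to_subtype
    exact IntermediateField.finiteDimensional_adjoin fun x hx => (hT x hx).isIntegral
  obtain ⟨Lv, hLv⟩ := exists_level_of p L
  refine ⟨Lv, f, fun a ha => hLv _ ?_⟩
  rw [Subalgebra.coe_pow]
  exact IntermediateField.subset_adjoin _ _ (Finset.mem_coe.2 (Finset.mem_image_of_mem _ ha))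

end Vale.Agent.P202.Mixed.Field
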