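import Vale.Agent.P202.Mixed.Field.Defs

/-!
# P202 mixed characteristic, block A2: power series over a field are integrally closed

Complete integral closedness passes to power series: compare lowest coefficients.
-/

noncomputable section

namespace Vale.Agent.P202.Mixed.Field

universe u

/-- If all powers of `g` divide `r` times those of `f`, then `g` divides `f`. -/
def DvdClosed (A : Type*) [CommRing A] : Prop :=
  ∀ f g r : A, r ≠ 0 → g ≠ 0 → (∀ n : ℕ, g ^ n ∣ r * f ^ n) → g ∣ f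

theorem DvdClosed.of_equiv {A B : Type*} [CommRing A] [CommRing B] (h : DvdClosed A)
    (e : A ≃+* B) : DvdClosed B := by
  intro f g r hr hg hn
  have := h (e.symm f) (e.symm g) (e.symm r) (by simpa using hr) (by simpa using hg) fun n => by
    simpa [map_pow, map_mul] using map_dvd e.symm.toRingHom (hn n)
  simpa using map_dvd e.toRingHom this

theorem DvdClosed.of_field (K : Type*) [_root_.Field K] : DvdClosed K :=
  fun _ _ _ _ hg _ => (isUnit_iff_ne_zero.2 hg).dvd

theorem DvdClosed.isIntegrallyClosed {A : Type*} [CommRing A] [IsDomain A] (h : DvdClosed A) :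
    IsIntegrallyClosed A := by
  refine (isIntegrallyClosed_iff (FractionRing A)).2 fun {x} hx => ?_
  obtain ⟨r, hr, hn⟩ := hx.isAlmostIntegral
  obtain ⟨⟨f, g⟩, hfg⟩ := IsLocalization.surj (nonZeroDivisors A) x
  have hinj := IsFractionRing.injective A (FractionRing A)
  have hdvd : ∀ n : ℕ, (g : A) ^ n ∣ r * f ^ n := fun n => by
    obtain ⟨a, ha⟩ := hn n
    refine ⟨a, hinj ?_⟩
    rw [map_mul, map_mul, map_pow, map_pow, ← hfg, mul_pow, ha, Algebra.smul_def]
    ring
  obtain ⟨q, hq⟩ := h f g r (nonZeroDivisors.ne_zero hr) (nonZeroDivisors.ne_zero g.2) hdvd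
  refine ⟨q, mul_right_cancel₀ (b := algebraMap A (FractionRing A) g)
    ((map_ne_zero_iff _ hinj).2 (nonZeroDivisors.ne_zero g.2)) ?_⟩
  rw [hfg, ← map_mul, hq, mul_comm]

section PowerSeries

open PowerSeries

variable {A : Type*} [CommRing A] [IsDomain A]

omit [IsDomain A] in
theorem not_X_dvd {g : PowerSeries A} (hg : constantCoeff g ≠ 0) : ¬ (X : PowerSeries A) ∣ g :=
  fun h => hg (X_dvd_iff.1 h)

theorem dvd_of_dvd_X_pow_mul {g z : PowerSeries A} (hg : ¬ (X : PowerSeries A) ∣ g) {m : ℕ}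
    (h : g ∣ X ^ m * z) : g ∣ z := by
  obtain ⟨w, hw⟩ := h
  obtain ⟨w', rfl⟩ := (X_prime (R := A)).pow_dvd_of_dvd_mul_left m hg ⟨z, hw.symm⟩
  exact ⟨w', mul_left_cancel₀ (pow_ne_zero m X_ne_zero) (hw.trans (by ring))⟩

theorem dvd_of_unit_coeff (hA : DvdClosed A) {f g r : PowerSeries A} (hr : r ≠ 0)
    (hg : constantCoeff g ≠ 0) (hn : ∀ n : ℕ, g ^ n ∣ r * f ^ n) : g ∣ f := by
  have hX : ∀ n : ℕ, ¬ (X : PowerSeries A) ∣ g ^ n := fun n =>
    not_X_dvd (by rw [map_pow]; exact pow_ne_zero n hg)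
  set r' := divXPowOrder r with hr'
  have hr0 : constantCoeff r' ≠ 0 := by
    rw [hr', constantCoeff_divXPowOrder]; exact coeff_order hr
  let P : PowerSeries A → Prop := fun f => ∀ n : ℕ, g ^ n ∣ r' * f ^ n
  have hP : P f := fun n => by
    refine dvd_of_dvd_X_pow_mul (hX n) (m := r.order.toNat) ?_
    rw [← mul_assoc, X_pow_order_mul_divXPowOrder]
    exact hn n
  have step : ∀ f : {f // P f}, ∃ q : A, ∃ f' : {f // P f}, f.1 = g * C q + X * f'.1 := by
    rintro ⟨f, hf⟩
    obtain ⟨q, hq⟩ := hA (constantCoeff f) (constantCoeff g) (constantCoeff r') hr0 hg fun n => by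
      simpa [map_pow, map_mul] using map_dvd (constantCoeff (R := A)) (hf n)
    obtain ⟨f', hf'⟩ : (X : PowerSeries A) ∣ f - g * C q := by
      rw [X_dvd_iff]; simp [hq]
    refine ⟨q, ⟨f', fun n => ?_⟩, eq_add_of_sub_eq' hf'⟩
    refine dvd_of_dvd_X_pow_mul (hX n) (m := n) ?_
    rw [mul_left_comm, ← mul_pow, ← hf', sub_eq_add_neg, add_pow, Finset.mul_sum]
    refine Finset.dvd_sum fun i hi => ?_
    have h1 := mul_dvd_mul (hf i) (pow_dvd_pow_of_dvd (show g ∣ -(g * C q) from
      (dvd_mul_right g (C q)).neg_right) (n - i))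
    rw [← pow_add, Nat.add_sub_cancel' (Nat.le_of_lt_succ (Finset.mem_range.1 hi))] at h1
    exact h1.trans ⟨(n.choose i : PowerSeries A), by ring⟩
  choose q next hnext using step
  let Q : {f // P f} → PowerSeries A := fun f => mk fun i => q (next^[i] f)
  have hQ : ∀ f, Q f = C (q f) + X * Q (next f) := fun f => by
    ext (_ | i)
    · simp [Q]
    · simp [Q, Function.iterate_succ_apply]
  have key : ∀ (m : ℕ) (f : {f // P f}), coeff m (f.1 - g * Q f) = 0 := by
    intro m
    induction m with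
    | zero =>
      intro f
      rw [hQ f, hnext f]
      simp
    | succ m ih =>
      intro f
      have e : f.1 - g * Q f = X * ((next f).1 - g * Q (next f)) := by
        rw [hQ f, hnext f]; ring
      rw [e, coeff_succ_X_mul, ih]
  refine ⟨Q ⟨f, hP⟩, ?_⟩
  rw [← sub_eq_zero]
  exact PowerSeries.ext fun m => (key m ⟨f, hP⟩).trans (map_zero (coeff m)).symm

theorem order_toNat_le {f g r : PowerSeries A} (hr : r ≠ 0) (hg : g ≠ 0) (hf : f ≠ 0)
    (hn : ∀ n : ℕ, g ^ n ∣ r * f ^ n) : g.order.toNat ≤ f.order.toNat := by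
  by_contra h
  push Not at h
  obtain ⟨w, hw⟩ := hn (r.order.toNat + 1)
  have hw0 : w ≠ 0 := fun hw0 => mul_ne_zero hr (pow_ne_zero _ hf) (by rw [hw, hw0, mul_zero])
  have h1 := congrArg PowerSeries.order hw
  have fin : ∀ z : PowerSeries A, z ≠ 0 → ∃ m : ℕ, z.order = (m : ℕ∞) := fun z hz =>
    ENat.ne_top_iff_exists.1 (by simpa [order_eq_top] using hz) |>.imp fun _ h => h.symm
  obtain ⟨ρ, hρ⟩ := fin r hr
  obtain ⟨a, ha⟩ := fin f hf
  obtain ⟨b, hb⟩ := fin g hg
  obtain ⟨c, hc⟩ := fin w hw0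
  simp only [order_mul, order_pow, hρ, ha, hb, hc, nsmul_eq_mul, ENat.toNat_natCast] at h1 h
  norm_cast at h1
  nlinarith

theorem DvdClosed.powerSeries (hA : DvdClosed A) : DvdClosed (PowerSeries A) := by
  intro f g r hr hg hn
  by_cases hf : f = 0
  · exact hf ▸ dvd_zero g
  have hle := order_toNat_le hr hg hf hn
  obtain ⟨f₁, hf₁⟩ : X ^ g.order.toNat ∣ f :=
    (pow_dvd_pow X hle).trans X_pow_order_dvd
  have hX0 : (X : PowerSeries A) ^ g.order.toNat ≠ 0 := pow_ne_zero _ X_ne_zero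
  have hgeq : X ^ g.order.toNat * divXPowOrder g = g := X_pow_order_mul_divXPowOrder
  have hg1 : constantCoeff (divXPowOrder g) ≠ 0 := by
    rw [constantCoeff_divXPowOrder]; exact coeff_order hg
  have h2 : ∀ n : ℕ, divXPowOrder g ^ n ∣ r * f₁ ^ n := fun n => by
    have h3 := hn n
    have e : r * f ^ n = (X ^ g.order.toNat) ^ n * (r * f₁ ^ n) := by rw [hf₁, mul_pow]; ring
    have e' : g ^ n = (X ^ g.order.toNat) ^ n * divXPowOrder g ^ n := by
      rw [← mul_pow, hgeq]
    rw [e, e'] at h3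
    exact (mul_dvd_mul_iff_left (pow_ne_zero n hX0)).1 h3
  obtain ⟨q, hq⟩ := dvd_of_unit_coeff hA hr hg1 h2
  exact ⟨q, by rw [hf₁, hq, ← mul_assoc, hgeq]⟩

end PowerSeries

variable (k : Type u) [_root_.Field k]

theorem dvdClosed_mvPowerSeries (n : ℕ) : DvdClosed (MvPowerSeries (Fin n) k) := by
  induction n with
  | zero => exact (DvdClosed.of_field k).of_equiv (MvPowerSeries.isEmptyEquiv (Fin 0) k).toRingEquiv.symm
  | succ n ih =>
    have : IsDomain (MvPowerSeries (Fin n) k) := NoZeroDivisors.to_isDomain _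
    exact ih.powerSeries.of_equiv (MvPowerSeries.finSuccEquiv k n).toRingEquiv.symm

instance (d : ℕ) : IsIntegrallyClosed (Ser k d) := (dvdClosed_mvPowerSeries k (d + 1)).isIntegrallyClosed

end Vale.Agent.P202.Mixed.Field
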