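import Vale.Agent.P202.Mixed.Field.Defs

/-!
# P202 mixed characteristic, block A2: the order function

Elementary properties of `ord`.
-/

noncomputable section

namespace Vale.Agent.P202.Mixed.Field

universe u

variable {k : Type u} [_root_.Field k] {d : ℕ}

theorem order_eq_ord {f : Ser k d} (hf : f ≠ 0) : f.order = (ord k d f : ℕ∞) :=
  (ENat.natCast_toNat (by simpa [MvPowerSeries.order_eq_top_iff] using hf)).symm

theorem order_ne_top {f : Ser k d} (hf : f ≠ 0) : f.order ≠ ⊤ := by
  rw [order_eq_ord hf]; exact ENat.natCast_ne_top _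

theorem ord_mul {f g : Ser k d} (hf : f ≠ 0) (hg : g ≠ 0) :
    ord k d (f * g) = ord k d f + ord k d g := by
  have h := MvPowerSeries.order_mul f g
  rw [order_eq_ord hf, order_eq_ord hg, order_eq_ord (mul_ne_zero hf hg), ← Nat.cast_add] at h
  exact_mod_cast h

theorem ord_pow {f : Ser k d} (hf : f ≠ 0) (n : ℕ) : ord k d (f ^ n) = n * ord k d f := by
  induction n with
  | zero =>
    have h : (1 : Ser k d).order = 0 := by
      rw [← nonpos_iff_eq_zero]
      refine MvPowerSeries.order_le (d := 0) (by simp) |>.trans ?_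
      simp
    simp [ord, h]
  | succ n ih => rw [pow_succ, ord_mul (pow_ne_zero n hf) hf, ih, Nat.succ_mul]

theorem coeff_eq_zero_of_lt_ord {f : Ser k d} {s : Fin (d + 1) →₀ ℕ} (h : s.degree < ord k d f) :
    MvPowerSeries.coeff s f = 0 := by
  refine MvPowerSeries.coeff_of_lt_order ?_
  by_cases hf : f = 0
  · simp [hf]
  · rw [order_eq_ord hf]
    exact_mod_cast h

end Vale.Agent.P202.Mixed.Field
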