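import Vale.Agent.P202.Mixed.Field.Normal

/-!
# P202 mixed characteristic, block A2: regular pairs in the integral closure

If `t` divides a series regular in the first variable, it is prime to every nonzero series free of
that variable: the minimal polynomial of a quotient has coefficients with bounded denominators for
both series, hence none.
-/

noncomputable section

namespace Vale.Agent.P202.Mixed.Field

open Polynomial IsLocalRing

universe u

variable {k : Type u} [_root_.Field k] {d : ℕ}

theorem dvd_of_dvd_regular_mul {g G u : Ser k d}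
    (hg : ∃ e : ℕ, MvPowerSeries.coeff (Finsupp.single 0 e) g ≠ 0)
    (hG : ∀ s : Fin (d + 1) →₀ ℕ, s 0 ≠ 0 → MvPowerSeries.coeff s G = 0)
    (h : G ∣ g * u) : G ∣ u := by
  classical
  let e := MvPowerSeries.finSuccEquiv k d
  set H := PowerSeries.coeff 0 (e G) with hH
  have hGH : e G = PowerSeries.C H := by
    ext m x
    rcases m with _ | m
    · simp [hH]
    · rw [MvPowerSeries.coeff_coeff_finSuccEquiv, PowerSeries.coeff_C, if_neg (Nat.succ_ne_zero m),
        map_zero]
      exact hG _ (by simp)
  suffices hu : PowerSeries.C H ∣ e u by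
    rw [← hGH] at hu
    simpa using map_dvd e.symm hu
  by_cases hunit : IsUnit H
  · exact (hunit.map PowerSeries.C).dvd
  have hdvd : PowerSeries.C H ∣ e g * e u := by rw [← hGH, ← map_mul]; exact map_dvd e h
  let A := MvPowerSeries (Fin d) k
  let Q := A ⧸ Ideal.span {H}
  have : Nontrivial Q := Ideal.Quotient.nontrivial_iff.2 (by
    rwa [Ne, Ideal.span_singleton_eq_top])
  have : IsLocalRing Q := .of_surjective' (Ideal.Quotient.mk _) Ideal.Quotient.mk_surjective
  have hloc : IsLocalHom (Ideal.Quotient.mk (Ideal.span {H})) :=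
    .of_surjective _ Ideal.Quotient.mk_surjective
  let π : PowerSeries A →+* PowerSeries Q := PowerSeries.map (Ideal.Quotient.mk _)
  have hmap : (π (e g)).map (residue Q) ≠ 0 := by
    obtain ⟨n, hn⟩ := hg
    intro h0
    have h1 := congrArg (PowerSeries.coeff n) h0
    rw [PowerSeries.coeff_map, map_zero, residue_eq_zero_iff, mem_maximalIdeal, mem_nonunits_iff,
      PowerSeries.coeff_map] at h1
    refine h1 (IsUnit.map _ ?_)
    rw [MvPowerSeries.isUnit_iff_constantCoeff, isUnit_iff_ne_zero,
      ← MvPowerSeries.coeff_zero_eq_constantCoeff_apply, MvPowerSeries.coeff_coeff_finSuccEquiv]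
    rw [show Finsupp.cons n (0 : Fin d →₀ ℕ) = Finsupp.single 0 n from
      Finsupp.ext fun i => Fin.cases (by simp) (fun j => by simp) i]
    exact hn
  have hdiv : PowerSeries.IsWeierstrassDivisorAt (π (e g)) (maximalIdeal Q) :=
    PowerSeries.IsWeierstrassDivisor.of_map_ne_zero hmap
  have hπ0 : ∀ z : PowerSeries A, PowerSeries.C H ∣ z ↔ π z = 0 := fun z => by
    refine ⟨fun ⟨w, hw⟩ => ?_, fun hz => ?_⟩
    · rw [hw, map_mul, PowerSeries.map_C,
        Ideal.Quotient.eq_zero_iff_mem.2 (Ideal.mem_span_singleton_self H), map_zero, zero_mul]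
    · have hc : ∀ i, H ∣ PowerSeries.coeff i z := fun i => by
        have := congrArg (PowerSeries.coeff i) hz
        rwa [PowerSeries.coeff_map, map_zero, Ideal.Quotient.eq_zero_iff_mem,
          Ideal.mem_span_singleton] at this
      choose w hw using hc
      exact ⟨PowerSeries.mk w, PowerSeries.ext fun i => by simp [hw i]⟩
  rw [hπ0] at hdvd ⊢
  rw [map_mul] at hdvd
  exact (hdiv.eq_zero_of_mul_eq (q := π (e u)) (r := 0)
    (by rw [Polynomial.degree_zero]; exact WithBot.bot_lt_coe _)
    (by rw [hdvd, Polynomial.coe_zero])).1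

theorem pow_dvd_of_dvd_regular_mul {g G : Ser k d}
    (hg : ∃ e : ℕ, MvPowerSeries.coeff (Finsupp.single 0 e) g ≠ 0)
    (hG : ∀ s : Fin (d + 1) →₀ ℕ, s 0 ≠ 0 → MvPowerSeries.coeff s G = 0) (hG0 : G ≠ 0) :
    ∀ (i j : ℕ) {u : Ser k d}, G ^ i ∣ g ^ j * u → G ^ i ∣ u := by
  intro i
  induction i with
  | zero => intro j u _; simp
  | succ i ih =>
    intro j u h
    have h1 : ∀ (l : ℕ) (u : Ser k d), G ∣ g ^ l * u → G ∣ u := by
      intro l
      induction l with
      | zero => intro u hu; simpa using hu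
      | succ l il =>
        intro u hu
        refine dvd_of_dvd_regular_mul hg hG (il (g * u) ?_)
        rwa [← mul_assoc, ← pow_succ]
    obtain ⟨u', rfl⟩ := h1 j u (dvd_trans (dvd_pow_self G (Nat.succ_ne_zero i)) h)
    rw [pow_succ', mul_left_comm, mul_dvd_mul_iff_left hG0] at h
    rw [pow_succ']
    exact mul_dvd_mul_left G (ih j h)

theorem exists_pow_mul_coeff_minpoly {z : Kbar k d} {a : Ser k d} (ha : a ≠ 0)
    (haz : IsIntegral (Ser k d) (algebraMap (Ser k d) (Kbar k d) a * z)) (i : ℕ) :
    ∃ u : Ser k d, algebraMap (Ser k d) (FractionRing (Ser k d)) u =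
      algebraMap (Ser k d) (FractionRing (Ser k d)) a ^
          ((minpoly (FractionRing (Ser k d)) z).natDegree - i) *
        (minpoly (FractionRing (Ser k d)) z).coeff i := by
  set ι := algebraMap (Ser k d) (FractionRing (Ser k d))
  have hz : IsIntegral (FractionRing (Ser k d)) z := Algebra.IsIntegral.isIntegral z
  have ha' : ι a ≠ 0 := (map_ne_zero_iff _ (IsFractionRing.injective _ _)).2 ha
  set q := (minpoly (FractionRing (Ser k d)) z).scaleRoots (ι a)
  have hq : q = minpoly (FractionRing (Ser k d)) (algebraMap (Ser k d) (Kbar k d) a * z) := by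
    refine minpoly.unique _ _ ((monic_scaleRoots_iff _).2 (minpoly.monic hz)) ?_ fun r hr hr0 => ?_
    · rw [IsScalarTower.algebraMap_apply (Ser k d) (FractionRing (Ser k d)) (Kbar k d)]
      exact scaleRoots_aeval_eq_zero (minpoly.aeval _ _)
    · have h1 : aeval z (r.scaleRoots (ι a)⁻¹) = 0 := by
        have := scaleRoots_aeval_eq_zero (r := (ι a)⁻¹) hr0
        rwa [IsScalarTower.algebraMap_apply (Ser k d) (FractionRing (Ser k d)) (Kbar k d),
          ← mul_assoc, ← map_mul, inv_mul_cancel₀ ha', map_one, one_mul] at this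
      have h2 := minpoly.min (FractionRing (Ser k d)) z ((monic_scaleRoots_iff _).2 hr) h1
      rw [degree_eq_natDegree ((monic_scaleRoots_iff _).2 (minpoly.monic hz)).ne_zero,
        natDegree_scaleRoots, degree_eq_natDegree hr.ne_zero, Nat.cast_le,
        ← natDegree_scaleRoots r (ι a)⁻¹]
      exact Nat.cast_le.1 ((degree_eq_natDegree (minpoly.ne_zero hz)).symm.trans_le
        (h2.trans_eq (degree_eq_natDegree ((monic_scaleRoots_iff _).2 hr).ne_zero)))
  refine ⟨(minpoly (Ser k d) (algebraMap (Ser k d) (Kbar k d) a * z)).coeff i, ?_⟩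
  rw [← Polynomial.coeff_map, ← minpoly.isIntegrallyClosed_eq_field_fractions'
    (FractionRing (Ser k d)) haz, ← hq, coeff_scaleRoots, mul_comm]

/-- A divisor of a series regular in the first variable is prime to the series free of it. -/
theorem regularStatement : RegularStatement.{u} := by
  intro k _ d g G t hg hG hG0 htg a hta
  obtain ⟨b, hb⟩ := hta
  obtain ⟨h, hh⟩ := htg
  have hg0 : g ≠ 0 := fun h0 => by obtain ⟨e, he⟩ := hg; simp [h0] at he
  have ht0 : (t : Kbar k d) ≠ 0 := fun h0 => by
    have : algebraMap (Ser k d) (T0 k d) g = 0 := by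
      rw [hh, Subtype.val_injective (a₁ := t) (a₂ := 0) h0, zero_mul]
    exact hg0 (algebraMap_t0_injective k d (this.trans (map_zero _).symm))
  set z : Kbar k d := (a : Kbar k d) / (t : Kbar k d)
  have hGz : algebraMap (Ser k d) (Kbar k d) G * z = (b : Kbar k d) := by
    have h1 := congrArg Subtype.val hb
    simp only [Subalgebra.coe_mul, Subalgebra.coe_algebraMap] at h1
    rw [← mul_div_assoc, h1, mul_div_cancel_left₀ _ ht0]
  have hgz : algebraMap (Ser k d) (Kbar k d) g * z = (a : Kbar k d) * (h : Kbar k d) := by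
    have h1 := congrArg Subtype.val hh
    simp only [Subalgebra.coe_mul, Subalgebra.coe_algebraMap] at h1
    rw [h1, ← mul_div_assoc, mul_assoc, mul_div_cancel_left₀ _ ht0, mul_comm]
  have hint : ∀ i, ∃ c : Ser k d, algebraMap (Ser k d) (FractionRing (Ser k d)) c =
      (minpoly (FractionRing (Ser k d)) z).coeff i := by
    intro i
    obtain ⟨u, hu⟩ := exists_pow_mul_coeff_minpoly hG0 (by rw [hGz]; exact b.2) i
    obtain ⟨v, hv⟩ := exists_pow_mul_coeff_minpoly hg0
      (by rw [hgz]; exact IsIntegral.mul a.2 h.2) i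
    set j := (minpoly (FractionRing (Ser k d)) z).natDegree - i
    have hinj := IsFractionRing.injective (Ser k d) (FractionRing (Ser k d))
    have huv : G ^ j ∣ g ^ j * u := ⟨v, hinj (by
      rw [map_mul, map_mul, map_pow, map_pow, hu, hv]; ring)⟩
    obtain ⟨c, rfl⟩ : G ^ j ∣ u := pow_dvd_of_dvd_regular_mul hg hG hG0 j j huv
    refine ⟨c, mul_left_cancel₀ (pow_ne_zero j ((map_ne_zero_iff _ hinj).2 hG0)) ?_⟩
    rw [← hu, map_mul, map_pow]
  have hz : IsIntegral (Ser k d) z := by
    have hl : minpoly (FractionRing (Ser k d)) z ∈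
        lifts (algebraMap (Ser k d) (FractionRing (Ser k d))) :=
      (lifts_iff_coeff_lifts _).2 fun i => hint i
    obtain ⟨f, hf, -, hfm⟩ := lifts_and_natDegree_eq_and_monic hl
      (minpoly.monic (Algebra.IsIntegral.isIntegral z))
    refine ⟨f, hfm, ?_⟩
    rw [← aeval_def, ← aeval_map_algebraMap (FractionRing (Ser k d)), hf, minpoly.aeval]
  refine ⟨⟨z, hz⟩, Subtype.val_injective ?_⟩
  show (a : Kbar k d) = (t : Kbar k d) * z
  rw [mul_div_cancel₀ _ ht0]

end Vale.Agent.P202.Mixed.Field
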